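import Vale.Agent.N271X.Bridge

open CategoryTheory AlgebraicGeometry Vale.Agent.P271L Vale.Agent.N271X

namespace Vale.Agent.Results.P271.A0Numerical

/-- **The intersection number form of Fujita's freeness conjecture.** Let `n ≥ 1`, let `X` be a
connected scheme, smooth of relative dimension `n` and proper over `ℂ`, and `L` an ample line bundle
on `X`. (1) Every subvariety `Z` has a degree `L^d · Z`, `d = dim Z`, a positive integer. (2) If
`L^d · Z ≥ (n + 1)^d` for all subvarieties `Z` of dimension `d ≥ 1` through the closed point `x`,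
then `K_X + L` has a section which does not vanish at `x`. (3) The same holds if `L^n ≥ a^n` and
`L^d · Z ≥ b^d` for the subvarieties `Z ≠ X` through `x`, where `a ≥ n + 1` and
`n / b + 1 / a < 1`. -/
theorem result (n : ℕ) (hn : 1 ≤ n) (X : Scheme.{0}) (f : X ⟶ Spec (CommRingCat.of ℂ))
    [SmoothOfRelativeDimension n f] [IsProper f] [ConnectedSpace X] (L : X.Modules)
    (hL : IsLineBundle L) (hA : IsAmple L) :
    (∀ Z : Set X, IsIrreducible Z → IsClosed Z →
      ∃ d e : ℕ, topologicalKrullDim Z = d ∧ 0 < e ∧ IsDegree f L Z d e) ∧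
    (∀ x : X, IsClosed ({x} : Set X) →
      (∀ Z : Set X, IsIrreducible Z → IsClosed Z → x ∈ Z → ∀ d : ℕ, 1 ≤ d →
        topologicalKrullDim Z = d → ∀ e : ℝ, IsDegree f L Z d e → ((n : ℝ) + 1) ^ d ≤ e) →
      ∃ s : Γ(tensor (canonical f n) L, ⊤), ¬ VanishesAt s x) ∧
    (∀ x : X, IsClosed ({x} : Set X) → ∀ a b : ℝ, (n : ℝ) + 1 ≤ a → 0 < b → n / b + 1 / a < 1 →
      (∀ e : ℝ, IsDegree f L Set.univ n e → a ^ n ≤ e) →
      (∀ Z : Set X, IsIrreducible Z → IsClosed Z → x ∈ Z → Z ≠ Set.univ → ∀ d : ℕ, 1 ≤ d →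
        topologicalKrullDim Z = d → ∀ e : ℝ, IsDegree f L Z d e → b ^ d ≤ e) →
      ∃ s : Γ(tensor (canonical f n) L, ⊤), ¬ VanishesAt s x) :=
  ⟨fun Z hZ hc => (deg_main n X f L hL hA Z hZ hc).imp fun _ h => h.imp fun _ h =>
      ⟨h.1, h.2.1, h.2.2.1⟩,
    fun _ hx => num_unif n hn X f L hL hA hx,
    fun _ hx _ _ ha hb hab => num_main n X f L hL hA hx ha hb (Or.inr hab)⟩

end Vale.Agent.Results.P271.A0Numerical
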